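import Vale.Agent.N335.Defs
import Vale.Agent.P335.H586.Sharp

/-! # Symmetric chains with an absolute spectral gap; comparison with the switch chain -/

namespace Vale.Agent.N335

open Finset Vale.Agent.P335 Vale.Agent.P335.H586

section Abstract

variable {Ω : Type*} [Fintype Ω]

/-- data of a symmetric stochastic matrix with absolute gap `γ ≤ 1` -/
structure SymC (P : Ω → Ω → ℝ) (γ : ℝ) : Prop where
  Ps : ∀ x y, P x y = P y x
  P1 : ∀ x, ∑ y, P x y = 1
  hγ : γ ≤ 1
  gap : ∀ f : Ω → ℝ, ∑ x, f x = 0 → |∑ x, f x * ∑ y, P x y * f y| ≤ (1 - γ) * ∑ x, f x ^ 2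

namespace SymC

variable {P : Ω → Ω → ℝ} {γ : ℝ} (h : SymC P γ)
include h

theorem sum_P (f : Ω → ℝ) : ∑ y, ∑ z, P y z * f z = ∑ z, f z := by
  rw [Finset.sum_comm]
  refine Finset.sum_congr rfl fun z _ => ?_
  rw [← Finset.sum_mul]
  have : ∑ y, P y z = 1 := by
    rw [← h.P1 z]; exact Finset.sum_congr rfl fun y _ => h.Ps y z
  rw [this, one_mul]

theorem adj (f g : Ω → ℝ) :
    ∑ x, f x * ∑ y, P x y * g y = ∑ x, (∑ y, P x y * f y) * g x := by
  simp_rw [Finset.mul_sum, Finset.sum_mul]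
  rw [Finset.sum_comm]
  refine Finset.sum_congr rfl fun x _ => Finset.sum_congr rfl fun y _ => ?_
  rw [h.Ps y x]; ring

/-- One step contracts the `ℓ²` norm of a mean zero function by `1 - γ`. -/
theorem step (g : Ω → ℝ) (hg : ∑ x, g x = 0) :
    ∑ y, (∑ z, P y z * g z) ^ 2 ≤ (1 - γ) ^ 2 * ∑ z, g z ^ 2 := by
  set c := 1 - γ with hc
  have hc0 : 0 ≤ c := by have := h.hγ; rw [hc]; linarith
  set u : Ω → ℝ := fun y => ∑ z, P y z * g z with hu
  have hu0 : ∑ y, u y = 0 := by rw [hu]; simp only; rw [h.sum_P, hg]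
  set A := ∑ x, g x ^ 2 with hA
  set C := ∑ x, u x ^ 2 with hC
  have key : ∀ s r : ℝ, |s ^ 2 * ∑ x, g x * u x + 2 * s * r * C +
      r ^ 2 * ∑ x, u x * ∑ y, P x y * u y| ≤
      c * (s ^ 2 * A + 2 * s * r * ∑ x, g x * u x + r ^ 2 * C) := by
    intro s r
    have h4 := h.gap (fun x => s * g x + r * u x) (by
      rw [Finset.sum_add_distrib, ← Finset.mul_sum, ← Finset.mul_sum, hg, hu0]; ring)
    have e1 : ∀ x, ∑ y, P x y * (s * g y + r * u y) = s * u x + r * ∑ y, P x y * u y := by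
      intro x
      simp only [hu, Finset.mul_sum, ← Finset.sum_add_distrib]
      refine Finset.sum_congr rfl fun y _ => ?_
      simp only [← Finset.mul_sum]
      ring
    have e3 : ∑ x, g x * ∑ y, P x y * u y = C := by
      rw [h.adj g u, hC]
      exact Finset.sum_congr rfl fun x _ => by rw [pow_two]
    have e2 : ∑ x, (s * g x + r * u x) * ∑ y, P x y * (s * g y + r * u y) =
        s ^ 2 * ∑ x, g x * u x + 2 * s * r * C + r ^ 2 * ∑ x, u x * ∑ y, P x y * u y := by
      rw [show 2 * s * r * C = s * r * C + s * r * C by ring]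
      nth_rewrite 1 [← e3]
      rw [hC]
      simp only [e1, Finset.mul_sum univ, ← Finset.sum_add_distrib]
      refine Finset.sum_congr rfl fun x _ => ?_
      simp only [← Finset.mul_sum]
      ring
    have e4 : ∑ x, (s * g x + r * u x) ^ 2 =
        s ^ 2 * A + 2 * s * r * ∑ x, g x * u x + r ^ 2 * C := by
      rw [hA, hC]
      simp only [Finset.mul_sum univ, ← Finset.sum_add_distrib]
      exact Finset.sum_congr rfl fun x _ => by ring
    rwa [e2, e4] at h4
  have h3 : ∀ s : ℝ, 4 * s * C ≤ 2 * c * (s ^ 2 * A + C) := by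
    intro s
    have h1 := (abs_le.1 (key s 1)).2
    have h2 := (abs_le.1 (key s (-1))).1
    linarith
  rcases hc0.eq_or_lt with hc1 | hc1
  · have := h3 1
    rw [← hc1] at this ⊢
    linarith
  · have h5 : c * C ≤ c * (c ^ 2 * A) := by linarith only [h3 c]
    exact le_of_mul_le_mul_left h5 hc1

omit h in
theorem mixing [DecidableEq Ω] [Nonempty Ω] {P : Matrix Ω Ω ℝ} (h : SymC P γ) (t : ℕ) (x : Ω) :
    ∑ y, ((P ^ t) x y - 1 / (Fintype.card Ω : ℝ)) = 0 ∧
    ∑ y, ((P ^ t) x y - 1 / (Fintype.card Ω : ℝ)) ^ 2 ≤ ((1 - γ) ^ t) ^ 2 := by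
  have hN : (0 : ℝ) < Fintype.card Ω := by exact_mod_cast Fintype.card_pos
  induction t with
  | zero =>
    constructor
    · rw [pow_zero]
      simp only [Matrix.one_apply, Finset.sum_sub_distrib, Finset.sum_ite_eq, Finset.mem_univ,
        if_true, Finset.sum_const, Finset.card_univ, nsmul_eq_mul]
      field_simp
      ring
    · rw [pow_zero]
      have : ∀ y, ((1 : Matrix Ω Ω ℝ) x y - 1 / (Fintype.card Ω : ℝ)) ^ 2
          = (if x = y then 1 else 0) * (1 - 2 / (Fintype.card Ω : ℝ))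
            + (1 / (Fintype.card Ω : ℝ)) ^ 2 := by
        intro y
        rw [Matrix.one_apply]
        split_ifs <;> ring
      simp_rw [this]
      rw [Finset.sum_add_distrib, ← Finset.sum_mul]
      simp only [Finset.sum_ite_eq, Finset.mem_univ,
        if_true, Finset.sum_const, Finset.card_univ, nsmul_eq_mul]
      have e : (Fintype.card Ω : ℝ) * (1 / (Fintype.card Ω : ℝ)) ^ 2 = 1 / (Fintype.card Ω : ℝ) := by
        (clear h this; field_simp)
      rw [e]
      have h2 : 0 < 1 / (Fintype.card Ω : ℝ) := by positivity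
      have h3 : 2 / (Fintype.card Ω : ℝ) = 2 * (1 / (Fintype.card Ω : ℝ)) := by ring
      rw [h3]
      have h4 : ((1 - γ) ^ 0) ^ 2 = 1 := by norm_num
      rw [h4]
      linarith only [h2]
  | succ t ih =>
    obtain ⟨ih1, ih2⟩ := ih
    have hstep : ∀ y, (P ^ (t + 1)) x y - 1 / (Fintype.card Ω : ℝ)
        = ∑ z, P y z * ((P ^ t) x z - 1 / (Fintype.card Ω : ℝ)) := by
      intro y
      rw [pow_succ, Matrix.mul_apply]
      simp_rw [mul_sub]
      rw [Finset.sum_sub_distrib, ← Finset.sum_mul, h.P1, one_mul]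
      congr 1
      refine Finset.sum_congr rfl fun z _ => ?_
      rw [h.Ps z y, mul_comm]
    constructor
    · simp_rw [hstep]
      rw [h.sum_P (fun z => (P ^ t) x z - 1 / (Fintype.card Ω : ℝ))]
      exact ih1
    · simp_rw [hstep]
      refine (h.step (fun z => (P ^ t) x z - 1 / (Fintype.card Ω : ℝ)) ih1).trans ?_
      calc (1 - γ) ^ 2 * ∑ z, ((P ^ t) x z - 1 / (Fintype.card Ω : ℝ)) ^ 2
          ≤ (1 - γ) ^ 2 * ((1 - γ) ^ t) ^ 2 := mul_le_mul_of_nonneg_left ih2 (sq_nonneg _)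
        _ = ((1 - γ) ^ (t + 1)) ^ 2 := by ring

omit h in
/-- total variation distance after `t` steps -/
theorem tv [DecidableEq Ω] {P : Matrix Ω Ω ℝ} (h : SymC P γ) {ε : ℝ} (hε : 0 < ε) (t : ℕ)
    (ht : Real.log (Fintype.card Ω) / 2 + Real.log (1 / (2 * ε)) ≤ γ * t) :
    ∀ x, (1 / 2) * ∑ y, |(P ^ t) x y - 1 / (Fintype.card Ω : ℝ)| ≤ ε := by
  intro x
  have : Nonempty Ω := ⟨x⟩
  have hN : (0 : ℝ) < Fintype.card Ω := by exact_mod_cast Fintype.card_pos
  obtain ⟨_, h2⟩ := h.mixing t x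
  have h3 : (∑ y, |(P ^ t) x y - 1 / (Fintype.card Ω : ℝ)|) ^ 2 ≤
      (Fintype.card Ω : ℝ) * ∑ y, ((P ^ t) x y - 1 / (Fintype.card Ω : ℝ)) ^ 2 := by
    have := sq_sum_le_card_mul_sum_sq (s := (univ : Finset Ω))
      (f := fun y => |(P ^ t) x y - 1 / (Fintype.card Ω : ℝ)|)
    simpa only [sq_abs, Finset.card_univ] using this
  have hc0 : 0 ≤ 1 - γ := by have := h.hγ; linarith
  have h4 : (1 - γ) ^ t ≤ Real.exp (-(γ * t)) := by
    have h5 : 1 - γ ≤ Real.exp (-γ) := by
      have := Real.add_one_le_exp (-γ); linarith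
    calc (1 - γ) ^ t ≤ Real.exp (-γ) ^ t := pow_le_pow_left₀ hc0 h5 t
      _ = Real.exp (-(γ * t)) := by rw [← Real.exp_nat_mul]; congr 1; ring
  have h6 : Real.exp (-(γ * t)) ^ 2 ≤ (2 * ε) ^ 2 / Fintype.card Ω := by
    have h7 : Real.exp (-(γ * t)) ^ 2 = Real.exp (-(2 * (γ * t))) := by
      rw [← Real.exp_nat_mul]; congr 1; push_cast; ring
    have h8 : (2 * ε) ^ 2 / Fintype.card Ω =
        Real.exp (-(Real.log (Fintype.card Ω) + 2 * Real.log (1 / (2 * ε)))) := by
      rw [neg_add, Real.exp_add, Real.exp_neg, Real.exp_log hN]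
      have h9 : -(2 * Real.log (1 / (2 * ε))) = Real.log ((2 * ε) ^ 2) := by
        rw [Real.log_pow, one_div, Real.log_inv]; push_cast; ring
      rw [h9, Real.exp_log (by positivity), div_eq_inv_mul]
    rw [h7, h8]
    apply Real.exp_le_exp.mpr
    linarith only [ht]
  have h10 : (∑ y, |(P ^ t) x y - 1 / (Fintype.card Ω : ℝ)|) ^ 2 ≤ (2 * ε) ^ 2 := by
    calc _ ≤ _ := h3
      _ ≤ (Fintype.card Ω : ℝ) * ((2 * ε) ^ 2 / Fintype.card Ω) := by
          refine mul_le_mul_of_nonneg_left (h2.trans (le_trans ?_ h6)) hN.le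
          exact pow_le_pow_left₀ (by positivity) h4 2
      _ = (2 * ε) ^ 2 := by field_simp
  have h11 := (le_abs_self _).trans (abs_le_of_sq_le_sq h10 (by positivity))
  linarith only [h11]

end SymC

end Abstract

variable {n : ℕ}

open Classical in
/-- comparison with the switch chain -/
theorem compare (hn : 4 ≤ n) (d : Fin n → ℕ) (P : Matrix (Realization d) (Realization d) ℝ)
    {q : ℝ} (hq : 0 < q) (h0 : ∀ G H, 0 ≤ P G H) (hs : ∀ G H, P G H = P H G)
    (h1 : ∀ G, ∑ H, P G H = 1) (hd : ∀ G, q ≤ P G G)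
    (hsw : ∀ G H, G ≠ H → 0 < switchChain d G H → q ≤ P G H) {ε : ℝ} (hε : 0 < ε) (t : ℕ)
    (ht : Real.log (Nat.card (Realization d)) / 2 + Real.log (1 / (2 * ε)) ≤ 2 * q * t) :
    Within P ε t := by
  intro G₀
  have : Nonempty (Realization d) := ⟨G₀⟩
  have hC : (0 : ℝ) < (n.choose 4 : ℝ) := by exact_mod_cast Nat.choose_pos hn
  have hup : ∀ f : Realization d → ℝ, ∑ x, f x = 0 →
      ∑ x, f x * ∑ y, P x y * f y ≤ (1 - 2 * q) * ∑ x, f x ^ 2 := by
    intro f hf
    have h2 := (lazy_switch hn d).gap f hf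
    have h3 : ∀ x y, 12 * (n.choose 4 : ℝ) * q * ((1 / 2) * (switchChain d x y * (f x - f y) ^ 2)) ≤
        (1 / 2) * (P x y * (f x - f y) ^ 2) := by
      intro x y
      by_cases hxy : x = y
      · subst hxy; simp
      have h4 : 12 * (n.choose 4 : ℝ) * q * switchChain d x y ≤ P x y := by
        rcases (chain_nonneg d x y).eq_or_lt with h5 | h5
        · rw [← h5, mul_zero]; exact h0 x y
        · refine le_trans ?_ (hsw x y hxy h5)
          have h6 := Qmat_le hn d hxy
          rw [le_div_iff₀ (by positivity)] at h6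
          rw [switchChain_eq, if_neg hxy]
          nlinarith
      nlinarith [mul_le_mul_of_nonneg_right h4 (sq_nonneg (f x - f y))]
    have h4 : 12 * (n.choose 4 : ℝ) * q *
        ∑ x, ∑ y, (1 / 2) * (switchChain d x y * (f x - f y) ^ 2) ≤
        ∑ x, ∑ y, (1 / 2) * (P x y * (f x - f y) ^ 2) := by
      rw [Finset.mul_sum]
      refine Finset.sum_le_sum fun x _ => ?_
      rw [Finset.mul_sum]
      exact Finset.sum_le_sum fun y _ => h3 x y
    rw [dir_eq P hs h1] at h4
    have h5 := mul_le_mul_of_nonneg_left h2 (show 0 ≤ 12 * (n.choose 4 : ℝ) * q by positivity)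
    have e : 12 * (n.choose 4 : ℝ) * q * (1 / (6 * (n.choose 4 : ℝ)) * ∑ x, f x ^ 2) =
        2 * q * ∑ x, f x ^ 2 := by field_simp; ring
    rw [e] at h5
    linarith
  have hlow : ∀ f : Realization d → ℝ,
      -((1 - 2 * q) * ∑ x, f x ^ 2) ≤ ∑ x, f x * ∑ y, P x y * f y := by
    intro f
    have key : 0 ≤ ∑ x, ∑ y, (P x y - if x = y then q else 0) * (f x + f y) ^ 2 := by
      refine Finset.sum_nonneg fun x _ => Finset.sum_nonneg fun y _ => mul_nonneg ?_ (sq_nonneg _)
      split_ifs with hxy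
      · rw [← hxy]; linarith [hd x]
      · linarith [h0 x y]
    have e1 : ∀ x, ∑ y, (P x y - if x = y then q else 0) * (f x + f y) ^ 2 =
        f x ^ 2 + ∑ y, P x y * f y ^ 2 + 2 * (f x * ∑ y, P x y * f y) - 4 * q * f x ^ 2 := by
      intro x
      simp only [sub_mul, Finset.sum_sub_distrib, ite_mul, zero_mul, Finset.sum_ite_eq,
        Finset.mem_univ, if_true]
      have : ∑ y, P x y * (f x + f y) ^ 2 =
          (∑ y, P x y) * f x ^ 2 + ∑ y, P x y * f y ^ 2 + 2 * (f x * ∑ y, P x y * f y) := by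
        simp only [Finset.mul_sum, Finset.sum_mul, ← Finset.sum_add_distrib]
        exact Finset.sum_congr rfl fun y _ => by ring
      rw [this, h1]
      ring
    have e2 : ∑ x, ∑ y, P x y * f y ^ 2 = ∑ x, f x ^ 2 := by
      rw [Finset.sum_comm]
      refine Finset.sum_congr rfl fun y _ => ?_
      rw [← Finset.sum_mul, Finset.sum_congr rfl fun x _ => hs x y, h1, one_mul]
    simp only [e1, Finset.sum_sub_distrib, Finset.sum_add_distrib, ← Finset.mul_sum, e2] at key
    linarith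
  by_cases hγ : 2 * q ≤ 1
  · rw [Nat.card_eq_fintype_card] at ht
    exact SymC.tv ⟨hs, h1, hγ, fun f hf => abs_le.2 ⟨hlow f, hup f hf⟩⟩ hε t ht G₀
  · have hS : SymC P 1 := by
      refine ⟨hs, h1, le_rfl, fun f hf => ?_⟩
      have h2 : ∑ x, f x ^ 2 = 0 := by
        have h3 : 0 ≤ ∑ x, f x ^ 2 := Finset.sum_nonneg fun x _ => sq_nonneg _
        nlinarith [hlow f, hup f hf]
      have h3 := hlow f
      have h4 := hup f hf
      rw [h2] at h3 h4 ⊢
      rw [abs_le]
      constructor <;> linarith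
    have h2 := (hS.mixing t G₀).1
    have h3 : ∑ x, ((P ^ t) G₀ x - 1 / (Fintype.card (Realization d) : ℝ)) ^ 2 = 0 := by
      have h4 : 0 ≤ ∑ x, ((P ^ t) G₀ x - 1 / (Fintype.card (Realization d) : ℝ)) ^ 2 :=
        Finset.sum_nonneg fun x _ => sq_nonneg _
      have h5 := hlow (fun x => (P ^ t) G₀ x - 1 / (Fintype.card (Realization d) : ℝ))
      have h6 := hup _ h2
      have h7 : 1 < 2 * q := not_le.1 hγ
      nlinarith [h5.trans h6]
    rw [Finset.sum_eq_zero_iff_of_nonneg fun x _ => sq_nonneg _] at h3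
    rw [Finset.sum_eq_zero fun x hx => by rw [pow_eq_zero_iff two_ne_zero |>.1 (h3 x hx), abs_zero]]
    linarith

end Vale.Agent.N335
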