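import Vale.Agent.P335.Defs

/-! # The switch chain that picks two disjoint edges (Cooper, Dyer, Greenhill) -/

namespace Vale.Agent.N335

open Finset Vale.Agent.P335

open Classical in
/-- The unordered pairs of disjoint edges of `G`. -/
noncomputable def disjointPairs {n : ℕ} (G : SimpleGraph (Fin n)) :
    Finset (Finset (Sym2 (Fin n))) :=
  (G.edgeFinset.powersetCard 2).filter fun F => ∀ v, (F.filter fun e => v ∈ e).card ≤ 1

open Classical in
/-- The edge-switch chain: choose a pair `F` of disjoint edges of `G` uniformly, then one of the
three perfect matchings `F'` of its four end vertices uniformly, and replace `F` by `F'` if both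
edges of `F'` are absent; otherwise stay put. -/
noncomputable def edgeChain {n : ℕ} (d : Fin n → ℕ) : Matrix (Realization d) (Realization d) ℝ :=
  fun G H => ∑ F ∈ disjointPairs G.1, (1 / ((disjointPairs G.1).card : ℝ)) *
    ∑ F' ∈ perfectMatchings (univ.filter fun v => ∃ e ∈ F, v ∈ e), (1 / 3) *
      (if switchMove G.1 F F' = H.1 then 1 else 0)

open Classical in
/-- After `t` steps the chain `P` on the graphs with degrees `d` is within total variation distance
`ε` of uniform, from every starting graph. -/
def Within {n : ℕ} {d : Fin n → ℕ} (P : Matrix (Realization d) (Realization d) ℝ) (ε : ℝ)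
    (t : ℕ) : Prop :=
  ∀ G : Realization d,
    (1 / 2) * ∑ H : Realization d, |(P ^ t) G H - 1 / (Fintype.card (Realization d) : ℝ)| ≤ ε

end Vale.Agent.N335
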