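import Vale.Agent.N335.Cmp

/-! # The edge-switch chain: structure, counting and mixing -/

namespace Vale.Agent.N335

open Finset Vale.Agent.P335 Vale.Agent.P335.H586

variable {n : ℕ}

open Classical in
/-- the end vertices of a set of edges -/
noncomputable abbrev supp (F : Finset (Sym2 (Fin n))) : Finset (Fin n) :=
  univ.filter fun v => ∃ e ∈ F, v ∈ e

theorem supp_PM {S : Finset (Fin n)} {F : Finset (Sym2 (Fin n))} (hF : F ∈ perfectMatchings S) :
    supp F = S := by
  ext v
  rw [PM_support hF, Finset.mem_filter]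
  simp only [Finset.mem_univ, true_and]

theorem pair_mem {G : SimpleGraph (Fin n)} {a b c e : Fin n}
    (hac : a ≠ c) (hae : a ≠ e) (hbc : b ≠ c) (hbe : b ≠ e)
    (h1 : s(a, b) ∈ G.edgeSet) (h2 : s(c, e) ∈ G.edgeSet) :
    ({s(a, b), s(c, e)} : Finset (Sym2 (Fin n))) ∈ disjointPairs G := by
  classical
  unfold disjointPairs
  rw [Finset.mem_filter, Finset.mem_powersetCard]
  refine ⟨⟨?_, ?_⟩, ?_⟩
  · intro f hf
    simp only [Finset.mem_insert, Finset.mem_singleton] at hf
    rcases hf with rfl | rfl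
    · exact SimpleGraph.mem_edgeFinset.2 h1
    · exact SimpleGraph.mem_edgeFinset.2 h2
  · refine Finset.card_pair ?_
    intro h
    rw [Sym2.eq_iff] at h
    rcases h with h | h
    · exact hac h.1
    · exact hae h.1
  · intro v
    rw [Finset.card_le_one]
    intro x hx y hy
    simp only [Finset.mem_filter, Finset.mem_insert, Finset.mem_singleton] at hx hy
    obtain ⟨hx1, hx2⟩ := hx
    obtain ⟨hy1, hy2⟩ := hy
    rcases hx1 with rfl | rfl <;> rcases hy1 with rfl | rfl
    · rfl
    · exfalso
      rw [Sym2.mem_iff] at hx2 hy2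
      rcases hx2 with rfl | rfl <;> rcases hy2 with h | h
      exacts [hac h, hae h, hbc h, hbe h]
    · exfalso
      rw [Sym2.mem_iff] at hx2 hy2
      rcases hy2 with rfl | rfl <;> rcases hx2 with h | h
      exacts [hac h, hae h, hbc h, hbe h]
    · rfl

theorem dp_iff {G : SimpleGraph (Fin n)} {F : Finset (Sym2 (Fin n))} :
    F ∈ disjointPairs G ↔
      (supp F).card = 4 ∧ F ∈ perfectMatchings (supp F) ∧ ∀ e ∈ F, e ∈ G.edgeSet := by
  classical
  constructor
  · intro hF
    unfold disjointPairs at hF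
    rw [Finset.mem_filter, Finset.mem_powersetCard] at hF
    obtain ⟨⟨hsub, hcard⟩, hdis⟩ := hF
    have hE : ∀ e ∈ F, e ∈ G.edgeSet := fun e he => SimpleGraph.mem_edgeFinset.1 (hsub he)
    obtain ⟨x, y, hxy, rfl⟩ := Finset.card_eq_two.1 hcard
    have hd : ∀ v, v ∈ x → v ∈ y → False := by
      intro v h1 h2
      have := Finset.card_le_one.1 (hdis v) x (by simp [h1]) y (by simp [h2])
      exact hxy this
    induction x using Sym2.ind with
    | _ a b =>
    induction y using Sym2.ind with
    | _ c e =>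
    have hab : a ≠ b := (G.mem_edgeSet.1 (hE s(a, b) (by simp))).ne
    have hce : c ≠ e := (G.mem_edgeSet.1 (hE s(c, e) (by simp))).ne
    have hac : a ≠ c := fun h => hd a (by simp) (by simp [h])
    have hae : a ≠ e := fun h => hd a (by simp) (by simp [h])
    have hbc : b ≠ c := fun h => hd b (by simp) (by simp [h])
    have hbe : b ≠ e := fun h => hd b (by simp) (by simp [h])
    have hP := PM_pair_mem hab hac hae hbc hbe hce
    rw [supp_PM hP]
    refine ⟨?_, hP, hE⟩
    rw [Finset.card_insert_of_notMem, Finset.card_insert_of_notMem, Finset.card_pair hce]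
    · simp [hbc, hbe]
    · simp [hab, hac, hae]
  · rintro ⟨hS, hF, hE⟩
    generalize supp F = S at hS hF
    obtain ⟨a, T, haT, rfl, hT⟩ := Finset.card_eq_succ.mp hS
    obtain ⟨b, c, e, hbc, hbe, hce, rfl⟩ := Finset.card_eq_three.mp hT
    simp only [Finset.mem_insert, Finset.mem_singleton, not_or] at haT
    obtain ⟨hab, hac, hae⟩ := haT
    rw [PM_eq hab hac hae hbc hbe hce] at hF
    simp only [Finset.mem_insert, Finset.mem_singleton] at hF
    rcases hF with rfl | rfl | rfl
    · exact pair_mem hac hae hbc hbe (hE _ (by simp)) (hE _ (by simp))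
    · exact pair_mem hab hae (Ne.symm hbc) hce (hE _ (by simp)) (hE _ (by simp))
    · exact pair_mem hab hac (Ne.symm hbe) (Ne.symm hce) (hE _ (by simp)) (hE _ (by simp))

/-- one move of the edge-switch chain leads from `G` to `H` -/
def Sw (G H : SimpleGraph (Fin n)) : Prop :=
  ∃ F ∈ disjointPairs G, ∃ F' ∈ perfectMatchings (supp F), switchMove G F F' = H

theorem Sw.symm {G H : SimpleGraph (Fin n)} (hne : G ≠ H) (h : Sw G H) : Sw H G := by
  obtain ⟨F, hF, F', hF', hm⟩ := h
  obtain ⟨h4, hP, _⟩ := dp_iff.1 hF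
  have e := supp_PM hF'
  refine ⟨F', dp_iff.2 ⟨by rw [e, h4], by rw [e]; exact hF', fun x hx =>
    (((move_edges hne hF' hm).2 x).1 hx).1⟩, F, by rw [e]; exact hP, switchMove_symm hne hF' hm⟩

open Classical in
theorem edge_off {d : Fin n → ℕ} {G H : Realization d} (hne : G ≠ H) :
    edgeChain d G H = if Sw G.1 H.1 then 1 / (3 * ((disjointPairs G.1).card : ℝ)) else 0 := by
  have hne' : G.1 ≠ H.1 := fun h => hne (Subtype.ext h)
  unfold edgeChain
  split_ifs with h
  · obtain ⟨F, hF, F', hF', hm⟩ := h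
    obtain ⟨a1, a2⟩ := move_edges hne' hF' hm
    rw [Finset.sum_eq_single_of_mem F hF, Finset.sum_eq_single_of_mem F' hF', if_pos hm]
    · rw [mul_one, one_div_mul_one_div, mul_comm]
    · intro K hK hKF
      rw [if_neg, mul_zero]
      intro h2
      exact hKF (Finset.ext fun e => by rw [(move_edges hne' hK h2).2, a2])
    · intro K _ hKF
      rw [Finset.sum_eq_zero, mul_zero]
      intro K' hK'
      rw [if_neg, mul_zero]
      intro h2
      exact hKF (Finset.ext fun e => by rw [(move_edges hne' hK' h2).1, a1])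
  · refine Finset.sum_eq_zero fun F hF => ?_
    rw [Finset.sum_eq_zero, mul_zero]
    intro F' hF'
    rw [if_neg, mul_zero]
    intro h2
    exact h ⟨F, hF, F', hF', h2⟩

theorem sw_of_pos {d : Fin n → ℕ} {G H : Realization d} (hne : G ≠ H)
    (h : 0 < switchChain d G H) : Sw G.1 H.1 := by
  classical
  have hne' : G.1 ≠ H.1 := fun h => hne (Subtype.ext h)
  rw [switchChain_eq, if_neg hne] at h
  have hQ : Qmat d G H ≠ 0 := by
    intro h0
    rw [h0] at h
    norm_num at h
  unfold Qmat at hQ
  obtain ⟨S, hS, h1⟩ := Finset.exists_ne_zero_of_sum_ne_zero hQ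
  obtain ⟨p, hp, h2⟩ := Finset.exists_ne_zero_of_sum_ne_zero (right_ne_zero_of_mul h1)
  have hm : switchMove G.1 p.1 p.2 = H.1 := by
    by_contra hc
    rw [if_neg hc, mul_zero] at h2
    exact h2 rfl
  rw [Finset.mem_offDiag] at hp
  rw [Finset.mem_powersetCard] at hS
  have e := supp_PM hp.1
  exact ⟨p.1, dp_iff.2 ⟨by rw [e, hS.2], by rw [e]; exact hp.1, fun x hx =>
    (((move_edges hne' hp.2.1 hm).1 x).1 hx).1⟩, p.2, by rw [e]; exact hp.2.1, hm⟩

theorem edge_nonneg (d : Fin n → ℕ) (G H : Realization d) : 0 ≤ edgeChain d G H := by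
  classical
  unfold edgeChain
  refine Finset.sum_nonneg fun S _ => mul_nonneg (by positivity) ?_
  refine Finset.sum_nonneg fun p _ => mul_nonneg (by norm_num) ?_
  split_ifs <;> norm_num

open Classical in
theorem edge_row {d : Fin n → ℕ} (G : Realization d) (ha : 0 < (disjointPairs G.1).card) :
    ∑ H, edgeChain d G H = 1 := by
  unfold edgeChain
  rw [Finset.sum_comm]
  have hC : (0 : ℝ) < ((disjointPairs G.1).card : ℝ) := by exact_mod_cast ha
  have h1 : ∀ F ∈ disjointPairs G.1,
      ∑ H : Realization d, (1 / ((disjointPairs G.1).card : ℝ)) *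
      ∑ F' ∈ perfectMatchings (supp F), (1 / 3) *
        (if switchMove G.1 F F' = H.1 then (1 : ℝ) else 0) =
        1 / ((disjointPairs G.1).card : ℝ) := by
    intro F hF
    obtain ⟨h4, hP, _⟩ := dp_iff.1 hF
    rw [← Finset.mul_sum, Finset.sum_comm]
    have h2 : ∀ F' ∈ perfectMatchings (supp F), ∑ H : Realization d, (1 / 3) *
        (if switchMove G.1 F F' = H.1 then (1 : ℝ) else 0) = 1 / 3 := by
      intro F' hF'
      rw [← Finset.mul_sum]
      have : ∀ H : Realization d, (if switchMove G.1 F F' = H.1 then (1 : ℝ) else 0)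
          = if (⟨switchMove G.1 F F', switchMove_hasDegrees G.2 hP hF'⟩ :
            Realization d) = H then 1 else 0 := by
        intro H
        refine if_congr ?_ rfl rfl
        rw [Subtype.ext_iff]
      simp_rw [this]
      rw [Finset.sum_ite_eq]
      simp only [one_div, mem_univ, ↓reduceIte, mul_one]
    rw [Finset.sum_congr rfl h2, Finset.sum_const, PM_card h4]
    norm_num
  rw [Finset.sum_congr rfl h1, Finset.sum_const, nsmul_eq_mul]
  field_simp

theorem edge_hold {d : Fin n → ℕ} (G : Realization d) (ha : 0 < (disjointPairs G.1).card) :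
    1 / 3 ≤ edgeChain d G G := by
  classical
  have hC : (0 : ℝ) < ((disjointPairs G.1).card : ℝ) := by exact_mod_cast ha
  unfold edgeChain
  have h1 : ∀ F ∈ disjointPairs G.1, (1 / ((disjointPairs G.1).card : ℝ)) * (1 / 3) ≤
      (1 / ((disjointPairs G.1).card : ℝ)) *
      ∑ F' ∈ perfectMatchings (supp F), (1 / 3) *
        (if switchMove G.1 F F' = G.1 then (1 : ℝ) else 0) := by
    intro F hF
    obtain ⟨h4, hP, hE⟩ := dp_iff.1 hF
    refine mul_le_mul_of_nonneg_left ?_ (by positivity)
    have hm : switchMove G.1 F F = G.1 := by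
      unfold switchMove
      rw [if_neg]
      rintro ⟨h1, h2⟩
      obtain ⟨v, hv⟩ : (supp F).Nonempty := by rw [← Finset.card_pos, h4]; norm_num
      obtain ⟨e, he, _⟩ := (Finset.mem_filter.1 hv).2
      exact h2 e he (h1 e he)
    have h3 := Finset.single_le_sum (f := fun F' => (1 / 3 : ℝ) *
        (if switchMove G.1 F F' = G.1 then (1 : ℝ) else 0))
      (fun F' _ => mul_nonneg (by norm_num) (by split_ifs <;> norm_num)) hP
    simp only [hm, if_true, mul_one] at h3
    simpa only [mul_one] using h3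
  refine le_trans (le_of_eq ?_) (Finset.sum_le_sum h1)
  rw [Finset.sum_const, nsmul_eq_mul]
  field_simp

open Classical in
theorem deg_eq {d : Fin n → ℕ} {G : SimpleGraph (Fin n)} (hG : HasDegrees d G) (v : Fin n) :
    G.degree v = d v := by
  rw [← hG v, ← SimpleGraph.card_neighborSet_eq_degree, Set.ncard_eq_toFinset_card',
    Set.toFinset_card]

open Classical in
theorem two_edges {d : Fin n → ℕ} {G : SimpleGraph (Fin n)} (hG : HasDegrees d G) :
    ∑ v, d v = 2 * G.edgeFinset.card := by
  rw [← SimpleGraph.sum_degrees_eq_twice_card_edges]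
  exact Finset.sum_congr rfl fun v _ => (deg_eq hG v).symm

open Classical in
/-- the number of pairs of disjoint edges -/
theorem count {d : Fin n → ℕ} {G : SimpleGraph (Fin n)} (hG : HasDegrees d G) :
    (disjointPairs G).card + ∑ v, (d v).choose 2 = G.edgeFinset.card.choose 2 := by
  rw [← Finset.card_powersetCard 2 G.edgeFinset,
    ← Finset.card_filter_add_card_filter_not (s := G.edgeFinset.powersetCard 2)
      (fun F => ∀ v, (F.filter fun e => v ∈ e).card ≤ 1)]
  congr 1
  have e : (G.edgeFinset.powersetCard 2).filter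
      (fun F => ¬ ∀ v, (F.filter fun e => v ∈ e).card ≤ 1) =
      univ.biUnion fun v => (G.incidenceFinset v).powersetCard 2 := by
    ext F
    simp only [Finset.mem_filter, Finset.mem_powersetCard, Finset.mem_biUnion, Finset.mem_univ,
      true_and, not_forall, not_le]
    constructor
    · rintro ⟨⟨hsub, hc⟩, v, hv⟩
      refine ⟨v, fun x hx => ?_, hc⟩
      have h1 : F.filter (fun e => v ∈ e) = F :=
        Finset.eq_of_subset_of_card_le (Finset.filter_subset _ _) (by omega)
      rw [← h1, Finset.mem_filter] at hx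
      rw [SimpleGraph.mem_incidenceFinset]
      exact ⟨SimpleGraph.mem_edgeFinset.1 (hsub hx.1), hx.2⟩
    · rintro ⟨v, hsub, hc⟩
      have h1 : ∀ x ∈ F, x ∈ G.edgeSet ∧ v ∈ x := fun x hx =>
        (SimpleGraph.mem_incidenceFinset _ _ _).1 (hsub hx)
      refine ⟨⟨fun x hx => SimpleGraph.mem_edgeFinset.2 (h1 x hx).1, hc⟩, v, ?_⟩
      rw [Finset.filter_true_of_mem fun x hx => (h1 x hx).2]
      omega
  rw [e, Finset.card_biUnion]
  · refine Finset.sum_congr rfl fun v _ => ?_
    rw [Finset.card_powersetCard, SimpleGraph.card_incidenceFinset_eq_degree, deg_eq hG]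
  · intro v _ w _ hvw
    rw [Function.onFun, Finset.disjoint_left]
    intro F h1 h2
    rw [Finset.mem_powersetCard] at h1 h2
    have h3 : F.card ≤ 1 := by
      rw [Finset.card_le_one]
      intro x hx y hy
      have a1 := ((SimpleGraph.mem_incidenceFinset _ _ _).1 (h1.1 hx)).2
      have a2 := ((SimpleGraph.mem_incidenceFinset _ _ _).1 (h2.1 hx)).2
      have b1 := ((SimpleGraph.mem_incidenceFinset _ _ _).1 (h1.1 hy)).2
      have b2 := ((SimpleGraph.mem_incidenceFinset _ _ _).1 (h2.1 hy)).2
      exact Sym2.eq_of_ne_mem hvw a1 a2 b1 b2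
    omega

end Vale.Agent.N335
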