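import Vale.Agent.N335.Edge

/-! # The edge-switch chain: upper and lower bounds -/

namespace Vale.Agent.N335

open Finset Vale.Agent.P335 Vale.Agent.P335.H586

variable {n : ℕ}

theorem edge_symm {d : Fin n → ℕ} {a : ℕ}
    (hA : ∀ G : Realization d, (disjointPairs G.1).card = a) (G H : Realization d) :
    edgeChain d G H = edgeChain d H G := by
  by_cases hne : G = H
  · rw [hne]
  have hne' : G.1 ≠ H.1 := fun h => hne (Subtype.ext h)
  rw [edge_off hne, edge_off (Ne.symm hne), hA, hA]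
  rw [propext (show Sw G.1 H.1 ↔ Sw H.1 G.1 from ⟨Sw.symm hne', Sw.symm hne'.symm⟩)]

theorem edge_mixing (hn : 4 ≤ n) {d : Fin n → ℕ} {a : ℕ}
    (hA : ∀ G : Realization d, (disjointPairs G.1).card = a) (ha : 0 < a) {ε : ℝ} (hε : 0 < ε)
    (t : ℕ) (ht : 3 * a / 2 * (Real.log (Nat.card (Realization d)) / 2 +
      Real.log (1 / (2 * ε))) ≤ t) : Within (edgeChain d) ε t := by
  have h1 : (1 : ℝ) ≤ a := by exact_mod_cast ha
  refine compare hn d (edgeChain d) (q := 1 / (3 * a)) (by positivity) (edge_nonneg d)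
    (edge_symm hA) (fun G => edge_row G (by rw [hA]; exact ha)) (fun G => ?_)
    (fun G H hne h => ?_) hε t ?_
  · refine le_trans ?_ (edge_hold G (by rw [hA]; exact ha))
    exact one_div_le_one_div_of_le (by norm_num) (by linarith)
  · rw [edge_off hne, if_pos (sw_of_pos hne h), hA]
  · have e : 2 * (1 / (3 * (a : ℝ))) * t = t / (3 * a / 2) := by field_simp
    rw [e, le_div_iff₀ (by positivity)]
    linarith

open Classical in
/-- the number of realizations in terms of the number of edges only -/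
theorem log_card_edges {d : Fin n → ℕ} (hd : Graphical d) {m : ℕ} (hm : ∑ v, d v = 2 * m) :
    Real.log (Nat.card (Realization d)) ≤ 2 * m * Real.log (2 * m) := by
  obtain ⟨G0, hG0⟩ := hd
  set T : Finset (Fin n) := univ.filter fun v => 0 < d v with hT
  have hTc : T.card ≤ 2 * m := by
    rw [← hm, Finset.card_eq_sum_ones]
    calc ∑ _v ∈ T, 1 ≤ ∑ v ∈ T, d v :=
          Finset.sum_le_sum fun v hv => (Finset.mem_filter.1 hv).2
      _ ≤ ∑ v, d v := Finset.sum_le_sum_of_subset (Finset.subset_univ _)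
  have h1 : Fintype.card (Realization d) ≤ ((2 * m) ^ 2) ^ m := by
    have h2 : Fintype.card (Realization d) ≤
        (((T ×ˢ T).image fun p => s(p.1, p.2)).powersetCard m).card := by
      rw [← Finset.card_univ]
      refine Finset.card_le_card_of_injOn (fun G => G.1.edgeFinset) ?_ ?_
      · intro G _
        rw [Finset.mem_coe, Finset.mem_powersetCard]
        constructor
        · intro x hx
          induction x using Sym2.ind with
          | _ u w =>
          have hadj : G.1.Adj u w := by simpa using hx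
          have hp : ∀ {u w : Fin n}, G.1.Adj u w → u ∈ T := by
            intro u w h
            rw [hT, Finset.mem_filter, ← deg_eq G.2 u]
            exact ⟨Finset.mem_univ _, h.degree_pos_left⟩
          exact Finset.mem_image.2 ⟨(u, w), Finset.mem_product.2 ⟨hp hadj, hp hadj.symm⟩, rfl⟩
        · have h3 := two_edges G.2
          have h4 : G.1.edgeFinset.card = m := by omega
          convert h4
      · intro G _ H _ h
        exact Subtype.ext (SimpleGraph.edgeFinset_inj.mp h)
    rw [Finset.card_powersetCard] at h2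
    refine h2.trans ((Nat.choose_le_pow _ _).trans (Nat.pow_le_pow_left ?_ m))
    refine Finset.card_image_le.trans ?_
    rw [Finset.card_product, pow_two]
    exact Nat.mul_le_mul hTc hTc
  have hpos : (0 : ℝ) < Fintype.card (Realization d) := by
    have : Nonempty (Realization d) := ⟨⟨G0, hG0⟩⟩
    exact_mod_cast Fintype.card_pos
  rw [Nat.card_eq_fintype_card]
  calc Real.log (Fintype.card (Realization d)) ≤ Real.log (((2 * m : ℝ) ^ 2) ^ m) :=
        Real.log_le_log hpos (by exact_mod_cast h1)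
    _ = 2 * m * Real.log (2 * m) := by
        rw [← pow_mul, Real.log_pow]; push_cast; ring

theorem edge_edges (hn : 4 ≤ n) {d : Fin n → ℕ} (hd : Graphical d) {a m : ℕ}
    (hm : ∑ v, d v = 2 * m) (ham : a ≤ m.choose 2)
    (hA : ∀ G : Realization d, (disjointPairs G.1).card = a) (ha : 0 < a) {ε : ℝ} (hε : 0 < ε)
    (t : ℕ) (ht : 3 / 4 * (m : ℝ) ^ 2 * (m * Real.log (2 * m) + Real.log (1 / (2 * ε))) ≤ t) :
    Within (edgeChain d) ε t := by
  refine edge_mixing hn hA ha hε t ?_
  have h1 := log_card_edges hd hm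
  have h2 : (a : ℝ) ≤ (m : ℝ) ^ 2 / 2 := by
    have h3 := Nat.choose_le_pow_div (α := ℝ) 2 m
    have h4 : (a : ℝ) ≤ (m.choose 2 : ℕ) := by exact_mod_cast ham
    simpa [Nat.factorial] using h4.trans h3
  have h0 : (0 : ℝ) ≤ a := Nat.cast_nonneg a
  set L := Real.log (Nat.card (Realization d)) / 2 + Real.log (1 / (2 * ε)) with hL
  rcases le_total L 0 with h | h
  · exact le_trans (mul_nonpos_of_nonneg_of_nonpos (by positivity) h) (Nat.cast_nonneg t)
  · refine le_trans ?_ ht
    calc 3 * (a : ℝ) / 2 * L ≤ 3 / 4 * (m : ℝ) ^ 2 * L :=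
          mul_le_mul_of_nonneg_right (by linarith) h
      _ ≤ _ := mul_le_mul_of_nonneg_left (by rw [hL]; linarith) (by positivity)

open Classical in
theorem hasDegrees_compl {d : Fin n → ℕ} {G : SimpleGraph (Fin n)} (hG : HasDegrees d G) :
    HasDegrees (fun v => n - 1 - d v) Gᶜ := by
  intro v
  have h1 := SimpleGraph.degree_compl G v
  rw [deg_eq hG, Fintype.card_fin] at h1
  show _ = n - 1 - d v
  rw [← h1, ← SimpleGraph.card_neighborSet_eq_degree, Set.ncard_eq_toFinset_card',
    Set.toFinset_card]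

/-- the complement of the degree vector `2, 2, 1, 1, 0, ..., 0` -/
def d1 (n : ℕ) (v : Fin n) : ℕ := n - 1 - d0 n v

theorem d0_le (hn : 4 ≤ n) (v : Fin n) : d0 n v ≤ n - 1 := by
  unfold d0; split_ifs <;> omega

theorem sum_d0 (hn : 4 ≤ n) : ∑ v, d0 n v = 6 := by
  obtain ⟨k, rfl⟩ := Nat.exists_eq_add_of_le' hn
  simp only [Fin.sum_univ_succ]
  rw [Finset.sum_eq_zero]
  · rfl
  · intro v _
    unfold d0
    simp only [Fin.val_succ]
    rw [if_neg (by omega), if_neg (by omega)]

theorem sum_d1 (hn : 4 ≤ n) : ∑ v, d1 n v + 6 = n * (n - 1) := by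
  rw [← sum_d0 hn, ← Finset.sum_add_distrib,
    Finset.sum_congr rfl fun v _ => show d1 n v + d0 n v = n - 1 from Nat.sub_add_cancel (d0_le hn v)]
  simp

/-- the two realizations -/
def C1 (hn : 4 ≤ n) : Realization (d1 n) := ⟨(R1 hn).1ᶜ, hasDegrees_compl (R1 hn).2⟩
def C2 (hn : 4 ≤ n) : Realization (d1 n) := ⟨(R2 hn).1ᶜ, hasDegrees_compl (R2 hn).2⟩

theorem C_ne (hn : 4 ≤ n) : C1 hn ≠ C2 hn := fun h =>
  R_ne hn (Subtype.ext (compl_injective (congrArg Subtype.val h)))

theorem C_cases (hn : 4 ≤ n) (G : Realization (d1 n)) : G = C1 hn ∨ G = C2 hn := by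
  have h1 : HasDegrees (d0 n) G.1ᶜ := by
    intro v
    rw [hasDegrees_compl G.2 v]
    have := d0_le hn v
    show n - 1 - (n - 1 - d0 n v) = _
    omega
  rcases R_cases hn ⟨G.1ᶜ, h1⟩ with h | h
  · left
    exact Subtype.ext (by rw [← compl_compl G.1]; exact congrArg (fun K => K.1ᶜ) h)
  · right
    exact Subtype.ext (by rw [← compl_compl G.1]; exact congrArg (fun K => K.1ᶜ) h)

open Classical in
theorem sum_C (hn : 4 ≤ n) (F : Realization (d1 n) → ℝ) : ∑ G, F G = F (C1 hn) + F (C2 hn) := by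
  have : (univ : Finset (Realization (d1 n))) = {C1 hn, C2 hn} := by
    ext G
    simpa using C_cases hn G
  rw [this, Finset.sum_pair (C_ne hn)]

open Classical in
theorem lower (hn : 4 ≤ n) {a : ℕ}
    (hA : ∀ G : Realization (d1 n), (disjointPairs G.1).card = a) (ha : 0 < a) (t : ℕ)
    (h : Within (edgeChain (d1 n)) (1 / 4) t) : 3 * a ≤ 4 * t := by
  have h1 : (1 : ℝ) ≤ a := by exact_mod_cast ha
  set P := edgeChain (d1 n) with hP
  set p := P (C1 hn) (C2 hn) with hp
  have hp0 : 0 ≤ p := edge_nonneg _ _ _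
  have hp1 : p ≤ 1 / (3 * a) := by
    rw [hp, hP, edge_off (C_ne hn), hA]
    split_ifs
    · exact le_rfl
    · positivity
  have h21 : P (C2 hn) (C1 hn) = p := edge_symm hA _ _
  have s1 := edge_row (C1 hn) (by rw [hA]; exact ha)
  have s2 := edge_row (C2 hn) (by rw [hA]; exact ha)
  rw [sum_C hn, ← hP, ← hp] at s1
  rw [sum_C hn, ← hP, h21] at s2
  have key : ∀ s : ℕ, (P ^ s) (C1 hn) (C1 hn) - (P ^ s) (C1 hn) (C2 hn) = (1 - 2 * p) ^ s := by
    intro s
    induction s with
    | zero => simp [C_ne hn]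
    | succ s ih =>
      rw [pow_succ P, Matrix.mul_apply, Matrix.mul_apply, sum_C hn, sum_C hn, h21, ← hp,
        pow_succ, ← ih, show P (C1 hn) (C1 hn) = 1 - p by linarith,
        show P (C2 hn) (C2 hn) = 1 - p by linarith]
      ring
  have h2 := h (C1 hn)
  rw [sum_C hn] at h2
  have h3 : (1 - 2 * p) ^ t ≤ 1 / 2 := by
    rw [← key t]
    have a1 := le_abs_self ((P ^ t) (C1 hn) (C1 hn) - 1 / (Fintype.card (Realization (d1 n)) : ℝ))
    have a2 := neg_le_abs ((P ^ t) (C1 hn) (C2 hn) - 1 / (Fintype.card (Realization (d1 n)) : ℝ))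
    linarith
  have h4 : 1 / (3 * (a : ℝ)) ≤ 1 / 3 := one_div_le_one_div_of_le (by norm_num) (by linarith)
  have h5 : 1 + (t : ℝ) * (-(2 * p)) ≤ (1 + -(2 * p)) ^ t := one_add_mul_le_pow (by linarith) t
  rw [← sub_eq_add_neg] at h5
  have h6 : (t : ℝ) * p ≤ t * (1 / (3 * a)) := mul_le_mul_of_nonneg_left hp1 (Nat.cast_nonneg t)
  have h7 : (1 : ℝ) / 4 ≤ t / (3 * a) := by
    rw [mul_one_div] at h6
    linarith
  rw [div_le_div_iff₀ (by norm_num) (by positivity)] at h7
  have h8 : 3 * (a : ℝ) ≤ 4 * t := by linarith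
  exact_mod_cast h8

theorem C_pos (hn : 4 ≤ n) : 0 < (disjointPairs (C1 hn).1).card := by
  refine Finset.card_pos.2 ⟨_, pair_mem (a := vx hn 0) (b := vx hn 3) (c := vx hn 1)
    (e := vx hn 2) (ne_vx hn (by decide)) (ne_vx hn (by decide)) (ne_vx hn (by decide))
    (ne_vx hn (by decide)) ?_ ?_⟩
  all_goals
    show ((G1 hn)ᶜ).Adj _ _
    rw [SimpleGraph.compl_adj, G1_adj]
    simp only [Ne, vx_inj]
    decide

open Classical in
theorem unique_of_zero (hn : 4 ≤ n) {d : Fin n → ℕ} (hd : Graphical d)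
    (hA : ∀ G : Realization d, (disjointPairs G.1).card = 0) : Nat.card (Realization d) = 1 := by
  obtain ⟨G0, hG0⟩ := hd
  have : Nonempty (Realization d) := ⟨⟨G0, hG0⟩⟩
  obtain ⟨t, ht⟩ := exists_nat_ge
    (Real.log (Nat.card (Realization d)) / 2 + Real.log (1 / (2 * (1 / 8))))
  have h := compare hn d (1 : Matrix (Realization d) (Realization d) ℝ) (q := 1) one_pos
    (fun G H => by rw [Matrix.one_apply]; split_ifs <;> norm_num)
    (fun G H => by simp only [Matrix.one_apply, eq_comm])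
    (fun G => by simp [Matrix.one_apply]) (fun G => by simp)
    (fun G H hne h => by
      obtain ⟨F, hF, _⟩ := sw_of_pos hne h
      rw [Finset.card_eq_zero.1 (hA G)] at hF
      exact absurd hF (Finset.notMem_empty F))
    (ε := 1 / 8) (by norm_num) t (by linarith [(Nat.cast_nonneg t : (0 : ℝ) ≤ t)]) ⟨G0, hG0⟩
  rw [one_pow] at h
  have h1 := Finset.single_le_sum (f := fun H => |(1 : Matrix (Realization d) (Realization d) ℝ)
    ⟨G0, hG0⟩ H - 1 / (Fintype.card (Realization d) : ℝ)|) (fun _ _ => abs_nonneg _)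
    (Finset.mem_univ ⟨G0, hG0⟩)
  simp only [Matrix.one_apply_eq] at h1
  have h2 := le_abs_self (1 - 1 / (Fintype.card (Realization d) : ℝ))
  have hN : 0 < Fintype.card (Realization d) := Fintype.card_pos
  have h3 : (3 : ℝ) / 4 ≤ 1 / (Fintype.card (Realization d) : ℝ) := by linarith
  rw [div_le_div_iff₀ (by norm_num) (by exact_mod_cast hN)] at h3
  have h4 : 3 * Fintype.card (Realization d) ≤ 1 * 4 := by exact_mod_cast h3
  rw [Nat.card_eq_fintype_card]
  omega

end Vale.Agent.N335
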